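import Vale.Agent.P268.T.H981.Pair2
import Vale.Agent.P268.T.K372.SheetsV

/-!
# P268-T, block [PC] (helper981): the pair inequality for the final sheets `cV` (SheetsV)

`inner_pair_pos`: if `G K < G L` and `K i < L i` for some `i`, then
`0 < ⟪Y K L, cV L u - cV K u⟫` for all `u` with `max u > d ‖u‖`, where `Y K L` is the constant
vector with entries `1` where `K k ≤ L k` and `-1/(2N)` where `L k < K k`.
-/

namespace Vale.Agent.P268.T.H981

open Finset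
open scoped RealInnerProductSpace
open Vale.Agent.P268.T.K372

variable {ι : Type*} [Fintype ι]

/-- the test vector of a pair. -/
noncomputable def Yv (K L : ι → ℕ) : EuclideanSpace ℝ ι :=
  WithLp.toLp 2 (yvec fun k => (L k : ℝ) - K k)

theorem Yv_apply_of_le {K L : ι → ℕ} {k : ι} (h : K k ≤ L k) : Yv K L k = 1 := by
  have h' : (K k : ℝ) ≤ L k := by exact_mod_cast h
  show yvec (fun k => (L k : ℝ) - K k) k = 1
  unfold yvec
  rw [if_neg (by linarith)]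

theorem Yv_apply_of_lt {K L : ι → ℕ} {k : ι} (h : L k < K k) :
    Yv K L k = -(1 / (2 * (Fintype.card ι : ℝ))) := by
  have h' : (L k : ℝ) < K k := by exact_mod_cast h
  show yvec (fun k => (L k : ℝ) - K k) k = _
  unfold yvec
  rw [if_pos (by linarith)]

theorem Yv_neg_of_lt {K L : ι → ℕ} {k : ι} (h : L k < K k) : Yv K L k < 0 := by
  rw [Yv_apply_of_lt h]
  have : (0 : ℝ) < Fintype.card ι := by
    exact_mod_cast Fintype.card_pos_iff.2 ⟨k⟩
  have : 0 < 1 / (2 * (Fintype.card ι : ℝ)) := by positivity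
  linarith

theorem Yv_eq_one {K L : ι → ℕ} (h : K ≤ L) : Yv K L = WithLp.toLp 2 fun _ => (1 : ℝ) := by
  ext k
  rw [Yv_apply_of_le (h k)]

/-- the vectors of SheetsV satisfy the hypotheses of `pairG_pos`. -/
theorem pmn {δ d : ℝ} (hδ0 : 0 ≤ δ) (hδ : Fintype.card ι * δ ^ 2 < 1) (hd : 0 ≤ d)
    (hdδ : d ≤ δ) {u : EuclideanSpace ℝ ι} (hu : u ≠ 0) :
    PMN (Fintype.card ι : ℝ) (fun k => max (u k) 0) (ppV d u) (fun k => nuV δ u k) := by
  have hn : 0 < ‖u‖ := norm_pos_iff.2 hu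
  refine ⟨fun k => ppV_nonneg d u k, fun k => ppV_le_pos hd u k, ?_, ?_, ?_, ?_, ?_, ?_⟩
  · intro k hk
    by_contra h0
    have h1 : 0 < ppV d u k := lt_of_le_of_ne (ppV_nonneg d u k) (Ne.symm h0)
    have h2 : d * ‖u‖ < u k := ppV_pos_iff.1 h1
    have h3 : 0 ≤ d * ‖u‖ := mul_nonneg hd hn.le
    have h4 : 0 ≤ nuV δ u k := nuV_nonneg hδ0 (by nlinarith [mul_nonneg hδ0 hn.le])
    linarith
  · intro k hk
    rw [ppV_pos_iff]
    have := (nuV_pos_iff hδ0).1 hk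
    exact lt_of_le_of_lt (mul_le_mul_of_nonneg_right hdδ hn.le) this
  · calc ∑ k, |nuV δ u k| ≤ ∑ _k : ι, (1 : ℝ) := sum_le_sum fun k _ => abs_nuV_le hδ0 u k
      _ = (Fintype.card ι : ℝ) := by simp
  · intro k
    have hS0 : 0 ≤ ∑ j, ppV d u j := sum_nonneg fun j _ => ppV_nonneg d u j
    have hS : ∑ j, ppV d u j ≤ (Fintype.card ι : ℝ) * ‖u‖ := by
      calc ∑ j, ppV d u j ≤ ∑ _j : ι, ‖u‖ := sum_le_sum fun j _ => ppV_le_norm hd u j
        _ = (Fintype.card ι : ℝ) * ‖u‖ := by simp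
    have h1 : nuV δ u k ≤ max (u k) 0 / ‖u‖ := by
      rw [nuV_apply']
      refine div_le_div_of_nonneg_right ?_ hn.le
      have : max (u k - δ * ‖u‖) 0 ≤ max (u k) 0 :=
        max_le_max (by nlinarith [mul_nonneg hδ0 hn.le]) le_rfl
      have : 0 ≤ max (-u k - δ * ‖u‖) 0 := le_max_right _ _
      linarith
    calc nuV δ u k * ∑ j, ppV d u j ≤ max (u k) 0 / ‖u‖ * ∑ j, ppV d u j :=
          mul_le_mul_of_nonneg_right h1 hS0
      _ ≤ max (u k) 0 / ‖u‖ * ((Fintype.card ι : ℝ) * ‖u‖) :=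
          mul_le_mul_of_nonneg_left hS (div_nonneg (le_max_right _ _) hn.le)
      _ = (Fintype.card ι : ℝ) * max (u k) 0 := by
          field_simp
  · intro i j hij
    have hij' : u i < u j := by
      by_contra hc
      have hc' : u j ≤ u i := not_lt.1 hc
      have : nuV δ u j ≤ nuV δ u i := by
        rw [nuV_apply', nuV_apply']
        refine div_le_div_of_nonneg_right ?_ hn.le
        have h1 : max (u j - δ * ‖u‖) 0 ≤ max (u i - δ * ‖u‖) 0 :=
          max_le_max (by linarith) le_rfl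
        have h2 : max (-u i - δ * ‖u‖) 0 ≤ max (-u j - δ * ‖u‖) 0 :=
          max_le_max (by linarith) le_rfl
        linarith
      exact absurd hij (not_lt.2 this)
    exact max_le_max (by linarith) le_rfl
  · by_contra hc
    push Not at hc
    exact nuV_ne_zero hδ0 hδ hu (by ext i; exact hc i)

omit [Fintype ι] in
theorem de {g : ℝ} (hg : 0 < g) (K L : ι → ℕ) :
    DE g g (fun k => (L k : ℝ) - K k) (fun _ => g) := by
  refine ⟨fun k => ?_, fun _ => hg, fun _ => le_rfl, fun _ _ => rfl, fun _ _ => le_rfl,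
    fun _ _ => le_rfl⟩
  rcases lt_trichotomy (K k) (L k) with h | h | h
  · right; left
    have : (K k : ℝ) + 1 ≤ L k := by exact_mod_cast h
    linarith
  · left; rw [h]; ring
  · right; right
    have : (L k : ℝ) + 1 ≤ K k := by exact_mod_cast h
    linarith

theorem cV_sub_apply (δ d θ : ℝ) (G : (ι → ℕ) → ℝ) (K L : ι → ℕ) (u : EuclideanSpace ℝ ι)
    (k : ι) :
    (cV δ d θ G L u - cV δ d θ G K u) k
      = difG θ (fun k => max (u k) 0) (ppV d u) (fun k => nuV δ u k)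
          (fun k => (L k : ℝ) - K k) (fun _ => G L - G K) k := by
  show cV δ d θ G L u k - cV δ d θ G K u k = _
  rw [cV_apply, cV_apply, etaV_eq, difG]
  have e1 : ∑ i, ppV d u i * nuV δ u i = ∑ i, nuV δ u i * ppV d u i :=
    sum_congr rfl fun i _ => mul_comm _ _
  have e2 : ∑ i, (G L - G K) * nuV δ u i = (G L - G K) * ∑ i, nuV δ u i := by
    rw [mul_sum]
  rw [e1, e2]
  ring

/-- **[PC]** for the final sheets. -/
theorem inner_pair_pos {δ d θ : ℝ} (hδ0 : 0 ≤ δ) (hδ : Fintype.card ι * δ ^ 2 < 1)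
    (hd : 0 ≤ d) (hdδ : d ≤ δ) (hθ : 0 < θ) {G : (ι → ℕ) → ℝ} {K L : ι → ℕ}
    (hG : G K < G L) (hKL : ∃ i, K i < L i)
    (hsmall : 4 * (Fintype.card ι : ℝ) * (θ * ((G L - G K) * Fintype.card ι)) ≤ 1)
    {u : EuclideanSpace ℝ ι} (hu : ∃ j, d * ‖u‖ < u j) :
    0 < ⟪Yv K L, cV δ d θ G L u - cV δ d θ G K u⟫ := by
  have hg : 0 < G L - G K := sub_pos.2 hG
  have hu0 : u ≠ 0 := by
    rintro rfl
    simp at hu
  obtain ⟨j, hj⟩ := hu
  obtain ⟨i, hi⟩ := hKL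
  have h := pairG_pos (pmn hδ0 hδ hd hdδ hu0) (de hg K L) hg hθ hsmall
    ⟨j, ppV_pos_iff.2 hj⟩ ⟨i, by
      have : (K i : ℝ) + 1 ≤ L i := by exact_mod_cast hi
      show 1 ≤ (L i : ℝ) - K i
      linarith⟩
  rw [inner_eq]
  refine lt_of_lt_of_eq h (sum_congr rfl fun k _ => ?_)
  rw [cV_sub_apply δ d θ G K L u k]
  rfl

/-- comparable pairs: the sum of the components of the difference is positive. -/
theorem sum_pair_pos {δ d θ : ℝ} (hδ0 : 0 ≤ δ) (hδ : Fintype.card ι * δ ^ 2 < 1)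
    (hd : 0 ≤ d) (hdδ : d ≤ δ) (hθ : 0 < θ) {G : (ι → ℕ) → ℝ} {K L : ι → ℕ}
    (hG : G K < G L) (hKL : K ≤ L)
    (hsmall : 4 * (Fintype.card ι : ℝ) * (θ * ((G L - G K) * Fintype.card ι)) ≤ 1)
    {u : EuclideanSpace ℝ ι} (hu : ∃ j, d * ‖u‖ < u j) :
    0 < ∑ k, (cV δ d θ G L u - cV δ d θ G K u) k := by
  have hne : K ≠ L := by rintro rfl; exact lt_irrefl _ hG
  have hex : ∃ i, K i < L i := by
    by_contra hc
    push Not at hc
    exact hne (le_antisymm hKL hc)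
  have h := inner_pair_pos hδ0 hδ hd hdδ hθ hG hex hsmall hu
  rw [Yv_eq_one hKL, inner_eq] at h
  simpa using h

/-- the mirror of the normal. -/
noncomputable def hV (δ : ℝ) (u : EuclideanSpace ℝ ι) : EuclideanSpace ℝ ι :=
  WithLp.toLp 2 fun k => -|nuV δ u k|

/-- a vector with entries of both signs is never parallel to `hV`: for incomparable pairs the
projection of `Y` to `h^⊥` has positive product with `Y`. -/
theorem inner_sq_lt_of_mixed {y h : EuclideanSpace ℝ ι} (hh : ∀ k, h k ≤ 0)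
    (h1 : ∃ i, 0 < y i) (h2 : ∃ i, y i < 0) (h0 : h ≠ 0) :
    ⟪y, h⟫ ^ 2 < ‖y‖ ^ 2 * ‖h‖ ^ 2 := by
  have hle : |⟪y, h⟫| ≤ ‖y‖ * ‖h‖ := abs_real_inner_le_norm y h
  have hsq : ⟪y, h⟫ ^ 2 ≤ ‖y‖ ^ 2 * ‖h‖ ^ 2 := by
    rw [← mul_pow, ← sq_abs]
    exact pow_le_pow_left₀ (abs_nonneg _) hle 2
  refine lt_of_le_of_ne hsq fun heq => ?_
  have hy0 : y ≠ 0 := by
    rintro rfl
    obtain ⟨i, hi⟩ := h1
    simp at hi
  have habs : |⟪y, h⟫| = ‖y‖ * ‖h‖ := by
    rw [← mul_pow, ← sq_abs] at heq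
    exact (pow_left_inj₀ (abs_nonneg _) (by positivity) two_ne_zero).1 heq
  have h3 : |⟪y, h⟫ / (‖y‖ * ‖h‖)| = 1 := by
    rw [abs_div, habs, abs_of_nonneg (by positivity : 0 ≤ ‖y‖ * ‖h‖)]
    exact div_self (mul_ne_zero (norm_ne_zero_iff.2 hy0) (norm_ne_zero_iff.2 h0))
  obtain ⟨_, r, hr0, hr⟩ := (abs_real_inner_div_norm_mul_norm_eq_one_iff y h).1 h3
  obtain ⟨i, hi⟩ := h1
  obtain ⟨j, hj⟩ := h2
  have e1 : h i = r * y i := by rw [hr]; rfl
  have e2 : h j = r * y j := by rw [hr]; rfl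
  rcases lt_or_gt_of_ne hr0 with hr1 | hr1
  · have : 0 < h j := by rw [e2]; exact mul_pos_of_neg_of_neg hr1 hj
    linarith [hh j]
  · have : 0 < h i := by rw [e1]; exact mul_pos hr1 hi
    linarith [hh i]

/-- the projection of a mixed vector to `h^⊥` has positive product with the vector. -/
theorem inner_proj_pos_of_mixed {y h : EuclideanSpace ℝ ι} (hh : ∀ k, h k ≤ 0)
    (h1 : ∃ i, 0 < y i) (h2 : ∃ i, y i < 0) (h0 : h ≠ 0) :
    0 < ⟪y, y - (⟪y, h⟫ / ‖h‖ ^ 2) • h⟫ := by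
  have hn : 0 < ‖h‖ ^ 2 := by
    have := norm_pos_iff.2 h0
    positivity
  rw [inner_sub_right, inner_smul_right, real_inner_self_eq_norm_sq]
  have e : ‖y‖ ^ 2 - ⟪y, h⟫ / ‖h‖ ^ 2 * ⟪y, h⟫ = (‖y‖ ^ 2 * ‖h‖ ^ 2 - ⟪y, h⟫ ^ 2) / ‖h‖ ^ 2 := by
    field_simp
  rw [e]
  exact div_pos (sub_pos.2 (inner_sq_lt_of_mixed hh h1 h2 h0)) hn

end Vale.Agent.P268.T.H981
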