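import Mathlib

/-!
# P268-T, block [PC] (helper981): the pair classes of the K-form are ONE inequality

Abstract vectors `m, n : ι → ℝ` (shifted positive part and shifted normal of 708/921),
`D = L - K`, `g = G L - G K`.  The difference of two thin sheets is

`dif th r g m n D k = D k * m k + th * (⟨m,n⟩ (D k + g) - ⟨D+g,n⟩ m k) / r`.

`pair_pos`: if some `D i ≥ 1` then `⟨y, dif⟩ > 0` with `y k = 1` where `D k ≥ 0`,
`y k = -1/(2N)` where `D k < 0`.
-/

namespace Vale.Agent.P268.T.H981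

open Finset

variable {ι : Type*} [Fintype ι]

/-- difference of two thin sheets of the K-form, as a function of the two vectors `m`, `n`. -/
noncomputable def dif (th r g : ℝ) (m n D : ι → ℝ) (k : ι) : ℝ :=
  D k * m k + th * ((∑ i, m i * n i) * (D k + g) - (∑ i, (D i + g) * n i) * m k) / r

/-- the constant test vector of a pair. -/
noncomputable def yv (D : ι → ℝ) (k : ι) : ℝ :=
  if D k < 0 then -(1 / (2 * (Fintype.card ι : ℝ))) else 1

/-- Hypotheses on the pair `m, n` at one base point. -/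
structure MN (r : ℝ) (m n : ι → ℝ) : Prop where
  m_nonneg : ∀ k, 0 ≤ m k
  sum_m : ∑ k, m k ≤ r
  sum_n : ∑ k, |n k| ≤ r
  n_le : ∀ k, n k ≤ m k
  m_zero : ∀ k, n k < 0 → m k = 0
  mono : Monovary m n
  n_ne : ∃ k, n k ≠ 0

namespace MN

variable {r : ℝ} {m n : ι → ℝ} (h : MN r m n)
include h

theorem r_pos : 0 < r := by
  obtain ⟨k, hk⟩ := h.n_ne
  refine lt_of_lt_of_le ?_ h.sum_n
  exact lt_of_lt_of_le (abs_pos.2 hk)
    (single_le_sum (f := fun k => |n k|) (fun i _ => abs_nonneg _) (mem_univ k))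

theorem mn_nonneg (k : ι) : 0 ≤ m k * n k := by
  rcases lt_or_ge (n k) 0 with hk | hk
  · rw [h.m_zero k hk]; simp
  · exact mul_nonneg (h.m_nonneg k) hk

end MN

/-- coefficient of `D + g`. -/
noncomputable def al (th r : ℝ) (m n : ι → ℝ) : ℝ := th * (∑ i, m i * n i) / r

/-- coefficient of `m`. -/
noncomputable def be (th r g : ℝ) (n D : ι → ℝ) : ℝ := th * (∑ i, (D i + g) * n i) / r

theorem dif_eq {th r g : ℝ} (hr : r ≠ 0) (m n D : ι → ℝ) (k : ι) :
    dif th r g m n D k = D k * m k + al th r m n * (D k + g) - be th r g n D * m k := by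
  simp only [dif, al, be]
  field_simp
  ring

theorem al_nonneg {th r : ℝ} {m n : ι → ℝ} (h : MN r m n) (hth : 0 < th) :
    0 ≤ al th r m n :=
  div_nonneg (mul_nonneg hth.le (sum_nonneg fun i _ => h.mn_nonneg i)) h.r_pos.le

theorem al_pos {th r : ℝ} {m n : ι → ℝ} (h : MN r m n) (hth : 0 < th) {k0 : ι}
    (hk0 : 0 < n k0) : 0 < al th r m n := by
  refine div_pos (mul_pos hth ?_) h.r_pos
  refine sum_pos' (fun i _ => h.mn_nonneg i) ⟨k0, mem_univ k0, ?_⟩
  exact mul_pos (lt_of_lt_of_le hk0 (h.n_le k0)) hk0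

theorem al_flat {th r : ℝ} {m n : ι → ℝ} (h : MN r m n) (hflat : ∀ k, n k ≤ 0) :
    al th r m n = 0 := by
  have : ∑ i, m i * n i = 0 := by
    refine sum_eq_zero fun i _ => ?_
    rcases lt_or_eq_of_le (hflat i) with hi | hi
    · rw [h.m_zero i hi]; simp
    · rw [hi]; simp
  rw [al, this]; simp

theorem be_abs {th r g P : ℝ} {m n D : ι → ℝ} (h : MN r m n) (hth : 0 < th)
    (hPg : 0 ≤ P + g) (hDt : ∀ k, 0 < D k + g) (hDtP : ∀ k, D k + g ≤ P + g) :
    |be th r g n D| ≤ th * (P + g) := by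
  have hr := h.r_pos
  rw [be, abs_div, abs_of_pos hr, div_le_iff₀ hr, abs_mul, abs_of_pos hth, mul_assoc]
  refine mul_le_mul_of_nonneg_left ?_ hth.le
  calc |∑ i, (D i + g) * n i| ≤ ∑ i, |(D i + g) * n i| := abs_sum_le_sum_abs _ _
    _ ≤ ∑ i, (P + g) * |n i| := by
        refine sum_le_sum fun i _ => ?_
        rw [abs_mul, abs_of_pos (hDt i)]
        exact mul_le_mul_of_nonneg_right (hDtP i) (abs_nonneg _)
    _ = (P + g) * ∑ i, |n i| := by rw [mul_sum]
    _ ≤ (P + g) * r := mul_le_mul_of_nonneg_left h.sum_n hPg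

theorem be_flat {th r g : ℝ} {m n D : ι → ℝ} (h : MN r m n) (hth : 0 < th)
    (hDt : ∀ k, 0 < D k + g) (hflat : ∀ k, n k ≤ 0) : be th r g n D < 0 := by
  refine div_neg_of_neg_of_pos (mul_neg_of_pos_of_neg hth ?_) h.r_pos
  obtain ⟨k, hk⟩ := h.n_ne
  refine sum_neg' (fun i _ => mul_nonpos_of_nonneg_of_nonpos (hDt i).le (hflat i))
    ⟨k, mem_univ k, mul_neg_of_pos_of_neg (hDt k) (lt_of_le_of_ne (hflat k) hk)⟩

/-- the flat region `n ≤ 0`. -/
theorem pair_pos_flat {th r g : ℝ} {m n D : ι → ℝ} (h : MN r m n) (hth : 0 < th)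
    (hbe1 : -1 < be th r g n D) (hm0 : ∃ k, 0 < m k)
    (hD : ∀ k, D k = 0 ∨ 1 ≤ D k ∨ D k ≤ -1) (hDt : ∀ k, 0 < D k + g)
    (hflat : ∀ k, n k ≤ 0) : 0 < ∑ k, yv D k * dif th r g m n D k := by
  have hr := h.r_pos
  have hbe' := be_flat h hth hDt hflat
  obtain ⟨k0, hk0⟩ := hm0
  have hcard : (1 : ℝ) ≤ (Fintype.card ι : ℝ) := by
    exact_mod_cast Fintype.card_pos_iff.2 ⟨k0⟩
  have he : (0 : ℝ) < 1 / (2 * (Fintype.card ι : ℝ)) := by positivity
  have key : ∀ k, 0 < yv D k * (D k - be th r g n D) := by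
    intro k
    unfold yv
    split_ifs with hk
    · have hk1 : D k ≤ -1 := by
        rcases hD k with h0 | h0 | h0 <;> linarith
      have : D k - be th r g n D < 0 := by linarith
      exact mul_pos_of_neg_of_neg (by linarith) this
    · have : 0 < D k - be th r g n D := by linarith
      linarith
  have e1 : ∀ k, yv D k * dif th r g m n D k = (yv D k * (D k - be th r g n D)) * m k := by
    intro k
    rw [dif_eq hr.ne', al_flat h hflat]
    ring
  refine sum_pos' (fun k _ => ?_) ⟨k0, mem_univ k0, ?_⟩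
  · rw [e1]; exact mul_nonneg (key k).le (h.m_nonneg k)
  · rw [e1]; exact mul_pos (key k0) hk0

/-- Chebyshev on `{D = 0}`. -/
theorem Z_part {th r g P : ℝ} {m n D : ι → ℝ} (h : MN r m n) (hth : 0 < th) (hg : 0 < g)
    (hP : 0 ≤ P) (hDt : ∀ k, 0 < D k + g) (hDtP : ∀ k, D k + g ≤ P + g) [DecidableEq ι] :
    -(th * (P + g)) * ∑ k ∈ univ.filter (fun k => ¬ D k = 0), m k ≤
      ∑ k ∈ univ.filter (fun k => D k = 0), yv D k * dif th r g m n D k := by
  have hr := h.r_pos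
  set Z : Finset ι := univ.filter fun k => D k = 0 with hZ
  set Zc : Finset ι := univ.filter fun k => ¬ D k = 0 with hZc
  have hsplit : ∀ f : ι → ℝ, ∑ k, f k = ∑ k ∈ Z, f k + ∑ k ∈ Zc, f k := by
    intro f
    rw [hZ, hZc, sum_filter_add_sum_filter_not]
  have hcheb : (∑ k ∈ Z, m k) * (∑ k ∈ Z, n k) ≤ (#Z : ℝ) * ∑ k ∈ Z, m k * n k :=
    (h.mono.monovaryOn _).sum_mul_sum_le_card_mul_sum
  have hMZ0 : 0 ≤ ∑ k ∈ Z, m k := sum_nonneg fun k _ => h.m_nonneg k
  have hMZc0 : 0 ≤ ∑ k ∈ Zc, m k := sum_nonneg fun k _ => h.m_nonneg k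
  have hMZ : ∑ k ∈ Z, m k ≤ r := by
    have := hsplit m
    have := h.sum_m
    linarith
  have e1 : ∑ k ∈ Z, yv D k * dif th r g m n D k
      = ∑ k ∈ Z, (al th r m n * g - be th r g n D * m k) := by
    refine sum_congr rfl fun k hk => ?_
    have hk0 : D k = 0 := (mem_filter.1 hk).2
    rw [dif_eq hr.ne']
    unfold yv
    rw [hk0]
    simp
  rw [e1, sum_sub_distrib, sum_const, nsmul_eq_mul, ← mul_sum]
  have e2 : (#Z : ℝ) * (al th r m n * g) - be th r g n D * ∑ k ∈ Z, m k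
      = th / r * (g * ((#Z : ℝ) * ∑ i, m i * n i)
        - (∑ i, (D i + g) * n i) * ∑ k ∈ Z, m k) := by
    rw [al, be]; field_simp
  rw [e2]
  have e3 : ∑ k ∈ Z, m k * n k ≤ ∑ i, m i * n i := by
    rw [hsplit]
    have : 0 ≤ ∑ k ∈ Zc, m k * n k := sum_nonneg fun k _ => h.mn_nonneg k
    linarith
  have e4 : ∑ i, (D i + g) * n i ≤ g * ∑ k ∈ Z, n k + (P + g) * ∑ k ∈ Zc, m k := by
    rw [hsplit]
    have f1 : ∑ k ∈ Z, (D k + g) * n k = g * ∑ k ∈ Z, n k := by
      rw [mul_sum]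
      refine sum_congr rfl fun k hk => ?_
      have hk0 : D k = 0 := (mem_filter.1 hk).2
      rw [hk0]; ring
    have f2 : ∑ k ∈ Zc, (D k + g) * n k ≤ (P + g) * ∑ k ∈ Zc, m k := by
      rw [mul_sum]
      refine sum_le_sum fun k _ => ?_
      calc (D k + g) * n k ≤ (D k + g) * m k :=
            mul_le_mul_of_nonneg_left (h.n_le k) (hDt k).le
        _ ≤ (P + g) * m k := mul_le_mul_of_nonneg_right (hDtP k) (h.m_nonneg k)
    linarith
  have e5 : -((P + g) * (∑ k ∈ Zc, m k) * r) ≤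
      g * ((#Z : ℝ) * ∑ i, m i * n i) - (∑ i, (D i + g) * n i) * ∑ k ∈ Z, m k := by
    have f1 : (∑ i, (D i + g) * n i) * ∑ k ∈ Z, m k ≤
        (g * ∑ k ∈ Z, n k + (P + g) * ∑ k ∈ Zc, m k) * ∑ k ∈ Z, m k :=
      mul_le_mul_of_nonneg_right e4 hMZ0
    have f2 : (#Z : ℝ) * ∑ k ∈ Z, m k * n k ≤ (#Z : ℝ) * ∑ i, m i * n i :=
      mul_le_mul_of_nonneg_left e3 (by positivity)
    have f3 : g * ((∑ k ∈ Z, m k) * (∑ k ∈ Z, n k)) ≤ g * ((#Z : ℝ) * ∑ i, m i * n i) :=
      mul_le_mul_of_nonneg_left (hcheb.trans f2) hg.le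
    have f4 : (P + g) * (∑ k ∈ Zc, m k) * (∑ k ∈ Z, m k) ≤
        (P + g) * (∑ k ∈ Zc, m k) * r :=
      mul_le_mul_of_nonneg_left hMZ (by positivity)
    linarith
  have e6 : -(th * (P + g)) * ∑ k ∈ Zc, m k
      = th / r * (-((P + g) * (∑ k ∈ Zc, m k) * r)) := by
    field_simp
  rw [e6]
  exact mul_le_mul_of_nonneg_left e5 (by positivity)

/-- one component, `D ≥ 1`. -/
theorem comp_pos {D m a b g e : ℝ} (hD : 1 ≤ D) (hm : 0 ≤ m) (ha : 0 ≤ a)
    (hb : b ≤ 1 / 4) (he : e ≤ 1 / 2) :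
    3 / 4 * e * m + a * g ≤ D * m + a * (D + g) - b * m := by
  have f1 : m ≤ D * m := le_mul_of_one_le_left hm hD
  have f2 : b * m ≤ 1 / 4 * m := mul_le_mul_of_nonneg_right hb hm
  have f3 : a * g ≤ a * (D + g) := mul_le_mul_of_nonneg_left (by linarith) ha
  have f5 : e * m ≤ 1 / 2 * m := mul_le_mul_of_nonneg_right he hm
  linarith

/-- one component, `D ≤ -1`. -/
theorem comp_neg {D m a b g e : ℝ} (hD : D ≤ -1) (hm : 0 ≤ m) (ha : 0 ≤ a)
    (hb : -(1 / 4) ≤ b) (he : 0 ≤ e) :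
    3 / 4 * e * m - e * (a * g) ≤ -e * (D * m + a * (D + g) - b * m) := by
  have f1 : m ≤ -D * m := le_mul_of_one_le_left hm (by linarith)
  have f2 : -(1 / 4) * m ≤ b * m := mul_le_mul_of_nonneg_right hb hm
  have f3 : a * (D + g) ≤ a * g := mul_le_mul_of_nonneg_left (by linarith) ha
  have f4 : 3 / 4 * m - a * g ≤ -(D * m + a * (D + g) - b * m) := by
    linarith
  have f5 := mul_le_mul_of_nonneg_left f4 he
  linarith

/-- the part `{D ≠ 0}`. -/
theorem Zc_part {th r g : ℝ} {m n D : ι → ℝ} (h : MN r m n) (hth : 0 < th) (hg : 0 < g)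
    (hb1 : -(1 / 4) ≤ be th r g n D) (hb2 : be th r g n D ≤ 1 / 4)
    (hD : ∀ k, D k = 0 ∨ 1 ≤ D k ∨ D k ≤ -1) {i0 : ι} (hi0 : 1 ≤ D i0) [DecidableEq ι] :
    3 / 4 * (1 / (2 * (Fintype.card ι : ℝ))) * ∑ k ∈ univ.filter (fun k => ¬ D k = 0), m k
        + al th r m n * g / 2 ≤
      ∑ k ∈ univ.filter (fun k => ¬ D k = 0), yv D k * dif th r g m n D k := by
  have hr := h.r_pos
  have hcard : (1 : ℝ) ≤ (Fintype.card ι : ℝ) := by
    exact_mod_cast Fintype.card_pos_iff.2 ⟨i0⟩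
  set N : ℝ := (Fintype.card ι : ℝ) with hN
  set Zc : Finset ι := univ.filter fun k => ¬ D k = 0 with hZc
  have ha := al_nonneg (n := n) h hth
  have halg : 0 ≤ al th r m n * g := mul_nonneg ha hg.le
  have he : (0 : ℝ) < 1 / (2 * N) := by positivity
  have hNle : 1 / (2 * N) ≤ 1 / 2 := by
    rw [div_le_div_iff₀ (by positivity) (by positivity)]; linarith
  have hi0Z : i0 ∈ Zc := by
    rw [hZc]
    refine mem_filter.2 ⟨mem_univ _, ?_⟩
    intro h0; rw [h0] at hi0; linarith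
  have key : ∀ k ∈ Zc, 3 / 4 * (1 / (2 * N)) * m k
      + ((if k = i0 then al th r m n * g else 0) - 1 / (2 * N) * (al th r m n * g)) ≤
      yv D k * dif th r g m n D k := by
    intro k hk
    have hk0 : ¬ D k = 0 := (mem_filter.1 hk).2
    have f6 : 0 ≤ 1 / (2 * N) * (al th r m n * g) := mul_nonneg he.le halg
    rw [dif_eq hr.ne']
    rcases hD k with h0 | h0 | h0
    · exact absurd h0 hk0
    · have hy : yv D k = 1 := by
        unfold yv; rw [if_neg (by linarith)]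
      have f4 : (if k = i0 then al th r m n * g else 0) ≤ al th r m n * g := by
        split_ifs
        · exact le_rfl
        · exact halg
      have f7 := comp_pos (g := g) h0 (h.m_nonneg k) ha hb2 hNle
      rw [hy, one_mul]
      linarith
    · have hy : yv D k = -(1 / (2 * N)) := by
        unfold yv; rw [if_pos (by linarith)]
      have hki : k ≠ i0 := by
        rintro rfl; linarith
      have f7 := comp_neg (g := g) h0 (h.m_nonneg k) ha hb1 he.le
      rw [hy, if_neg hki]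
      linarith
  have hsum := sum_le_sum key
  refine le_trans ?_ hsum
  rw [sum_add_distrib, ← mul_sum, sum_sub_distrib, sum_ite_eq' Zc i0, if_pos hi0Z,
    sum_const, nsmul_eq_mul]
  have hcardZ : (#Zc : ℝ) ≤ N := by
    rw [hN]
    exact_mod_cast card_le_univ Zc
  have f8 : (#Zc : ℝ) * (1 / (2 * N) * (al th r m n * g)) ≤
      N * (1 / (2 * N) * (al th r m n * g)) :=
    mul_le_mul_of_nonneg_right hcardZ (mul_nonneg he.le halg)
  have e : N * (1 / (2 * N) * (al th r m n * g)) = al th r m n * g / 2 := by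
    field_simp
  linarith

/-- **[PC]**: the difference of two thin sheets has positive product with the constant vector
`yv D`, at every base point with `m ≠ 0`. -/
theorem pair_pos {th r g P : ℝ} {m n D : ι → ℝ} (h : MN r m n) (hth : 0 < th)
    (hsmall : 4 * (Fintype.card ι : ℝ) * (th * (P + g)) ≤ 1)
    (hm0 : ∃ k, 0 < m k)
    (hD : ∀ k, D k = 0 ∨ 1 ≤ D k ∨ D k ≤ -1) (hDP : ∀ k, |D k| ≤ P) (hDg : ∀ k, |D k| < g)
    (hDi : ∃ i, 1 ≤ D i) :
    0 < ∑ k, yv D k * dif th r g m n D k := by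
  classical
  have hr := h.r_pos
  obtain ⟨i0, hi0⟩ := hDi
  have hcard : (1 : ℝ) ≤ (Fintype.card ι : ℝ) := by
    exact_mod_cast Fintype.card_pos_iff.2 ⟨i0⟩
  have hg : 0 < g := lt_of_le_of_lt (abs_nonneg _) (hDg i0)
  have hP : 0 ≤ P := le_trans (abs_nonneg _) (hDP i0)
  have hs : 0 ≤ th * (P + g) := by positivity
  have hsN : th * (P + g) ≤ 1 / (4 * (Fintype.card ι : ℝ)) := by
    rw [le_div_iff₀ (by positivity)]; linarith
  have hs4 : th * (P + g) ≤ 1 / 4 := by
    refine hsN.trans ?_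
    rw [div_le_div_iff₀ (by positivity) (by positivity)]; linarith
  have hDt : ∀ k, 0 < D k + g := by
    intro k
    have := (abs_lt.1 (hDg k)).1
    linarith
  have hDtP : ∀ k, D k + g ≤ P + g := by
    intro k
    have := (abs_le.1 (hDP k)).2
    linarith
  have hbe1 := abs_le.1 (be_abs h hth (by positivity) hDt hDtP)
  by_cases hflat : ∀ k, n k ≤ 0
  · exact pair_pos_flat h hth (by linarith) hm0 hD hDt hflat
  · push Not at hflat
    obtain ⟨k0, hk0⟩ := hflat
    have hal_pos := al_pos (n := n) h hth hk0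
    have h1 := Z_part h hth hg hP hDt hDtP
    have h2 := Zc_part h hth hg (by linarith) (by linarith) hD hi0
    rw [← sum_filter_add_sum_filter_not univ (fun k => D k = 0)]
    have hMZc0 : 0 ≤ ∑ k ∈ univ.filter (fun k => ¬ D k = 0), m k :=
      sum_nonneg fun k _ => h.m_nonneg k
    have hfin : th * (P + g) * ∑ k ∈ univ.filter (fun k => ¬ D k = 0), m k ≤
        3 / 4 * (1 / (2 * (Fintype.card ι : ℝ))) *
          ∑ k ∈ univ.filter (fun k => ¬ D k = 0), m k := by
      refine mul_le_mul_of_nonneg_right (hsN.trans ?_) hMZc0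
      rw [show 3 / 4 * (1 / (2 * (Fintype.card ι : ℝ))) = 3 / (8 * (Fintype.card ι : ℝ)) by
        field_simp; norm_num]
      rw [div_le_div_iff₀ (by positivity) (by positivity)]
      linarith
    have : 0 < al th r m n * g := mul_pos hal_pos hg
    linarith

end Vale.Agent.P268.T.H981
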