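import Mathlib

/-!
# P268-T, block [PC] (helper981): pair classes of the K-form, general pointwise inequality

`difG th p m n D E k = D k * p k + th * (⟨m,n⟩ E k - ⟨E,n⟩ m k)`, with `p ≥ m ≥ 0`, `m, n`
similarly ordered, `n` degree 0.  It contains

* helper373's final K-form (`p = u⁺`, `m = ut`, `n = nu`, `E = g` constant, `th = theta`),
* helper921's form (`p = m`, `E = D + g`, `n := n/|u|`).

`pairG_pos`: `⟨yv D, difG⟩ > 0`.
-/

namespace Vale.Agent.P268.T.H981

open Finset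

variable {ι : Type*} [Fintype ι]

/-- difference of two thin sheets of the K-form. -/
noncomputable def difG (th : ℝ) (p m n D E : ι → ℝ) (k : ι) : ℝ :=
  D k * p k + th * ((∑ i, m i * n i) * E k - (∑ i, E i * n i) * m k)

/-- the constant test vector of a pair. -/
noncomputable def yvec (D : ι → ℝ) (k : ι) : ℝ :=
  if D k < 0 then -(1 / (2 * (Fintype.card ι : ℝ))) else 1

/-- Hypotheses on the vectors `p, m, n` at one base point. -/
structure PMN (C : ℝ) (p m n : ι → ℝ) : Prop where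
  m_nonneg : ∀ k, 0 ≤ m k
  m_le : ∀ k, m k ≤ p k
  m_zero : ∀ k, n k < 0 → m k = 0
  m_pos : ∀ k, 0 < n k → 0 < m k
  sum_n : ∑ k, |n k| ≤ C
  n_mul : ∀ k, n k * ∑ j, m j ≤ C * p k
  mono : Monovary m n
  n_ne : ∃ k, n k ≠ 0

namespace PMN

variable {C : ℝ} {p m n : ι → ℝ} (h : PMN C p m n)
include h

theorem p_nonneg (k : ι) : 0 ≤ p k := (h.m_nonneg k).trans (h.m_le k)

theorem C_pos : 0 < C := by
  obtain ⟨k, hk⟩ := h.n_ne
  refine lt_of_lt_of_le ?_ h.sum_n
  exact lt_of_lt_of_le (abs_pos.2 hk)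
    (single_le_sum (f := fun k => |n k|) (fun i _ => abs_nonneg _) (mem_univ k))

theorem mn_nonneg (k : ι) : 0 ≤ m k * n k := by
  rcases lt_or_ge (n k) 0 with hk | hk
  · rw [h.m_zero k hk]; simp
  · exact mul_nonneg (h.m_nonneg k) hk

end PMN

/-- Hypotheses on the index data of a pair `K, L`: `D = L - K`, `E`. -/
structure DE (g Em : ℝ) (D E : ι → ℝ) : Prop where
  D_int : ∀ k, D k = 0 ∨ 1 ≤ D k ∨ D k ≤ -1
  E_pos : ∀ k, 0 < E k
  E_le : ∀ k, E k ≤ Em
  E_zero : ∀ k, D k = 0 → E k = g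
  E_ge : ∀ k, 1 ≤ D k → g ≤ E k
  E_neg : ∀ k, D k ≤ -1 → E k ≤ g

theorem alG_pos {th C : ℝ} {p m n : ι → ℝ} (h : PMN C p m n) (hth : 0 < th) {k0 : ι}
    (hk0 : 0 < n k0) : 0 < th * ∑ i, m i * n i := by
  refine mul_pos hth ?_
  refine sum_pos' (fun i _ => h.mn_nonneg i) ⟨k0, mem_univ k0, ?_⟩
  exact mul_pos (h.m_pos k0 hk0) hk0

theorem alG_flat {C : ℝ} {p m n : ι → ℝ} (h : PMN C p m n) (hflat : ∀ k, n k ≤ 0) :
    ∑ i, m i * n i = 0 := by
  refine sum_eq_zero fun i _ => ?_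
  rcases lt_or_eq_of_le (hflat i) with hi | hi
  · rw [h.m_zero i hi]; simp
  · rw [hi]; simp

theorem beG_abs {th C g Em : ℝ} {p m n D E : ι → ℝ} (h : PMN C p m n) (hd : DE g Em D E)
    (hth : 0 < th) : |th * ∑ i, E i * n i| ≤ th * (Em * C) := by
  obtain ⟨k, _⟩ := h.n_ne
  have hEm : 0 < Em := lt_of_lt_of_le (hd.E_pos k) (hd.E_le k)
  rw [abs_mul, abs_of_pos hth]
  refine mul_le_mul_of_nonneg_left ?_ hth.le
  calc |∑ i, E i * n i| ≤ ∑ i, |E i * n i| := abs_sum_le_sum_abs _ _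
    _ ≤ ∑ i, Em * |n i| := by
        refine sum_le_sum fun i _ => ?_
        rw [abs_mul, abs_of_pos (hd.E_pos i)]
        exact mul_le_mul_of_nonneg_right (hd.E_le i) (abs_nonneg _)
    _ = Em * ∑ i, |n i| := by rw [mul_sum]
    _ ≤ Em * C := mul_le_mul_of_nonneg_left h.sum_n hEm.le

theorem beG_flat {th C g Em : ℝ} {p m n D E : ι → ℝ} (h : PMN C p m n) (hd : DE g Em D E)
    (hth : 0 < th) (hflat : ∀ k, n k ≤ 0) : th * ∑ i, E i * n i < 0 := by
  refine mul_neg_of_pos_of_neg hth ?_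
  obtain ⟨k, hk⟩ := h.n_ne
  refine sum_neg' (fun i _ => mul_nonpos_of_nonneg_of_nonpos (hd.E_pos i).le (hflat i))
    ⟨k, mem_univ k, mul_neg_of_pos_of_neg (hd.E_pos k) (lt_of_le_of_ne (hflat k) hk)⟩

/-- the flat region `n ≤ 0`. -/
theorem pairG_pos_flat {th C g Em : ℝ} {p m n D E : ι → ℝ} (h : PMN C p m n)
    (hd : DE g Em D E) (hth : 0 < th) (hbe1 : -1 < th * ∑ i, E i * n i)
    (hm0 : ∃ k, 0 < m k) (hflat : ∀ k, n k ≤ 0) : 0 < ∑ k, yvec D k * difG th p m n D E k := by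
  have hbe' := beG_flat h hd hth hflat
  set b := th * ∑ i, E i * n i with hb
  obtain ⟨k0, hk0⟩ := hm0
  have hcard : (1 : ℝ) ≤ (Fintype.card ι : ℝ) := by
    exact_mod_cast Fintype.card_pos_iff.2 ⟨k0⟩
  have he : (0 : ℝ) < 1 / (2 * (Fintype.card ι : ℝ)) := by positivity
  have e1 : ∀ k, difG th p m n D E k = D k * p k - b * m k := by
    intro k
    rw [difG, alG_flat h hflat, hb]
    ring
  have key : ∀ k, 0 ≤ yvec D k * difG th p m n D E k ∧
      (0 < m k → 0 < yvec D k * difG th p m n D E k) := by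
    intro k
    have hmk := h.m_nonneg k
    have hpk := h.p_nonneg k
    have hmp := h.m_le k
    have hbm : 0 ≤ -b * m k := mul_nonneg (by linarith) hmk
    rw [e1]
    unfold yvec
    split_ifs with hk
    · have hk1 : D k ≤ -1 := by
        rcases hd.D_int k with h0 | h0 | h0 <;> linarith
      have f1 : p k ≤ -D k * p k := le_mul_of_one_le_left hpk (by linarith)
      have f2 : -b * m k ≤ 1 * m k := mul_le_mul_of_nonneg_right (by linarith) hmk
      constructor
      · have : D k * p k - b * m k ≤ 0 := by linarith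
        exact mul_nonneg_of_nonpos_of_nonpos (by linarith) this
      · intro hm
        have f3 : -b * m k < 1 * m k := mul_lt_mul_of_pos_right (by linarith) hm
        have : D k * p k - b * m k < 0 := by linarith
        exact mul_pos_of_neg_of_neg (by linarith) this
    · have hDk : 0 ≤ D k := not_lt.1 hk
      have f1 : 0 ≤ D k * p k := mul_nonneg hDk hpk
      constructor
      · linarith
      · intro hm
        have : 0 < -b * m k := mul_pos (by linarith) hm
        linarith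
  exact sum_pos' (fun k _ => (key k).1) ⟨k0, mem_univ k0, (key k0).2 hk0⟩

/-- Chebyshev on `{D = 0}`. -/
theorem ZG_part {th C g Em : ℝ} {p m n D E : ι → ℝ} (h : PMN C p m n)
    (hd : DE g Em D E) (hg : 0 < g) (hth : 0 < th) [DecidableEq ι] :
    -(th * (Em * C)) * ∑ k ∈ univ.filter (fun k => ¬ D k = 0), p k ≤
      ∑ k ∈ univ.filter (fun k => D k = 0), yvec D k * difG th p m n D E k := by
  have hC := h.C_pos
  obtain ⟨k1, _⟩ := h.n_ne
  have hEm : 0 < Em := lt_of_lt_of_le (hd.E_pos k1) (hd.E_le k1)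
  set Z : Finset ι := univ.filter fun k => D k = 0 with hZ
  set Zc : Finset ι := univ.filter fun k => ¬ D k = 0 with hZc
  have hsplit : ∀ f : ι → ℝ, ∑ k, f k = ∑ k ∈ Z, f k + ∑ k ∈ Zc, f k := by
    intro f
    rw [hZ, hZc, sum_filter_add_sum_filter_not]
  have hcheb : (∑ k ∈ Z, m k) * (∑ k ∈ Z, n k) ≤ (#Z : ℝ) * ∑ k ∈ Z, m k * n k :=
    (h.mono.monovaryOn _).sum_mul_sum_le_card_mul_sum
  have hMZ0 : 0 ≤ ∑ k ∈ Z, m k := sum_nonneg fun k _ => h.m_nonneg k
  have hMZc0 : 0 ≤ ∑ k ∈ Zc, m k := sum_nonneg fun k _ => h.m_nonneg k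
  have hMZ : ∑ k ∈ Z, m k ≤ ∑ k, m k := by
    have := hsplit m
    linarith
  have e1 : ∑ k ∈ Z, yvec D k * difG th p m n D E k
      = ∑ k ∈ Z, (th * (∑ i, m i * n i) * g - th * (∑ i, E i * n i) * m k) := by
    refine sum_congr rfl fun k hk => ?_
    have hk0 : D k = 0 := (mem_filter.1 hk).2
    rw [difG, hd.E_zero k hk0]
    unfold yvec
    rw [hk0]
    simp
    ring
  rw [e1, sum_sub_distrib, sum_const, nsmul_eq_mul, ← mul_sum]
  have e2 : (#Z : ℝ) * (th * (∑ i, m i * n i) * g) - th * (∑ i, E i * n i) * ∑ k ∈ Z, m k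
      = th * (g * ((#Z : ℝ) * ∑ i, m i * n i) - (∑ i, E i * n i) * ∑ k ∈ Z, m k) := by
    ring
  rw [e2]
  have e3 : ∑ k ∈ Z, m k * n k ≤ ∑ i, m i * n i := by
    rw [hsplit]
    have : 0 ≤ ∑ k ∈ Zc, m k * n k := sum_nonneg fun k _ => h.mn_nonneg k
    linarith
  have e4 : (∑ i, E i * n i) * ∑ k ∈ Z, m k ≤
      g * (∑ k ∈ Z, n k) * (∑ k ∈ Z, m k) + (Em * C) * ∑ k ∈ Zc, p k := by
    rw [hsplit, add_mul]
    have f1 : ∑ k ∈ Z, E k * n k = g * ∑ k ∈ Z, n k := by
      rw [mul_sum]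
      refine sum_congr rfl fun k hk => ?_
      rw [hd.E_zero k (mem_filter.1 hk).2]
    have f2 : (∑ k ∈ Zc, E k * n k) * (∑ k ∈ Z, m k) ≤ (Em * C) * ∑ k ∈ Zc, p k := by
      rw [sum_mul, mul_sum]
      refine sum_le_sum fun k _ => ?_
      have hpk := h.p_nonneg k
      rcases lt_or_ge (n k) 0 with hk | hk
      · have : E k * n k * ∑ k ∈ Z, m k ≤ 0 :=
          mul_nonpos_of_nonpos_of_nonneg
            (mul_nonpos_of_nonneg_of_nonpos (hd.E_pos k).le hk.le) hMZ0
        have : 0 ≤ Em * C * p k := by positivity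
        linarith
      · calc E k * n k * ∑ k ∈ Z, m k ≤ Em * n k * ∑ k ∈ Z, m k :=
              mul_le_mul_of_nonneg_right (mul_le_mul_of_nonneg_right (hd.E_le k) hk) hMZ0
          _ ≤ Em * n k * ∑ k, m k :=
              mul_le_mul_of_nonneg_left hMZ (mul_nonneg hEm.le hk)
          _ = Em * (n k * ∑ k, m k) := by ring
          _ ≤ Em * (C * p k) := mul_le_mul_of_nonneg_left (h.n_mul k) hEm.le
          _ = Em * C * p k := by ring
    rw [f1]
    linarith
  have e5 : -((Em * C) * ∑ k ∈ Zc, p k) ≤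
      g * ((#Z : ℝ) * ∑ i, m i * n i) - (∑ i, E i * n i) * ∑ k ∈ Z, m k := by
    have f2 : (#Z : ℝ) * ∑ k ∈ Z, m k * n k ≤ (#Z : ℝ) * ∑ i, m i * n i :=
      mul_le_mul_of_nonneg_left e3 (by positivity)
    have f3 : g * ((∑ k ∈ Z, m k) * (∑ k ∈ Z, n k)) ≤ g * ((#Z : ℝ) * ∑ i, m i * n i) :=
      mul_le_mul_of_nonneg_left (hcheb.trans f2) hg.le
    linarith
  have e6 : -(th * (Em * C)) * ∑ k ∈ Zc, p k = th * (-((Em * C) * ∑ k ∈ Zc, p k)) := by
    ring
  rw [e6]
  exact mul_le_mul_of_nonneg_left e5 hth.le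

/-- one component, `D ≥ 1`. -/
theorem compG_pos {D p m a b E g e : ℝ} (hD : 1 ≤ D) (hm : 0 ≤ m) (hmp : m ≤ p) (ha : 0 ≤ a)
    (hb : b ≤ 1 / 4) (hE : g ≤ E) (he : e ≤ 1 / 2) :
    3 / 4 * e * p + a * g ≤ D * p + a * E - b * m := by
  have hp : 0 ≤ p := hm.trans hmp
  have f1 : p ≤ D * p := le_mul_of_one_le_left hp hD
  have f2 : b * m ≤ 1 / 4 * m := mul_le_mul_of_nonneg_right hb hm
  have f3 : a * g ≤ a * E := mul_le_mul_of_nonneg_left hE ha
  have f5 : e * p ≤ 1 / 2 * p := mul_le_mul_of_nonneg_right he hp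
  linarith

/-- one component, `D ≤ -1`. -/
theorem compG_neg {D p m a b E g e : ℝ} (hD : D ≤ -1) (hm : 0 ≤ m) (hmp : m ≤ p) (ha : 0 ≤ a)
    (hb : -(1 / 4) ≤ b) (hE : E ≤ g) (he : 0 ≤ e) :
    3 / 4 * e * p - e * (a * g) ≤ -e * (D * p + a * E - b * m) := by
  have hp : 0 ≤ p := hm.trans hmp
  have f1 : p ≤ -D * p := le_mul_of_one_le_left hp (by linarith)
  have f2 : -(1 / 4) * m ≤ b * m := mul_le_mul_of_nonneg_right hb hm
  have f3 : a * E ≤ a * g := mul_le_mul_of_nonneg_left hE ha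
  have f4 : 3 / 4 * p - a * g ≤ -(D * p + a * E - b * m) := by
    linarith
  have f5 := mul_le_mul_of_nonneg_left f4 he
  linarith

/-- the part `{D ≠ 0}`. -/
theorem ZcG_part {th C g Em : ℝ} {p m n D E : ι → ℝ} (h : PMN C p m n) (hd : DE g Em D E)
    (hg : 0 < g) (hth : 0 < th)
    (hb1 : -(1 / 4) ≤ th * ∑ i, E i * n i) (hb2 : th * ∑ i, E i * n i ≤ 1 / 4)
    {i0 : ι} (hi0 : 1 ≤ D i0) [DecidableEq ι] :
    3 / 4 * (1 / (2 * (Fintype.card ι : ℝ))) * ∑ k ∈ univ.filter (fun k => ¬ D k = 0), p k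
        + th * (∑ i, m i * n i) * g / 2 ≤
      ∑ k ∈ univ.filter (fun k => ¬ D k = 0), yvec D k * difG th p m n D E k := by
  have hcard : (1 : ℝ) ≤ (Fintype.card ι : ℝ) := by
    exact_mod_cast Fintype.card_pos_iff.2 ⟨i0⟩
  set N : ℝ := (Fintype.card ι : ℝ) with hN
  set Zc : Finset ι := univ.filter fun k => ¬ D k = 0 with hZc
  set a : ℝ := th * ∑ i, m i * n i with haE
  set b : ℝ := th * ∑ i, E i * n i with hbE
  have ha : 0 ≤ a := mul_nonneg hth.le (sum_nonneg fun i _ => h.mn_nonneg i)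
  have halg : 0 ≤ a * g := mul_nonneg ha hg.le
  have he : (0 : ℝ) < 1 / (2 * N) := by positivity
  have hNle : 1 / (2 * N) ≤ 1 / 2 := by
    rw [div_le_div_iff₀ (by positivity) (by positivity)]; linarith
  have hi0Z : i0 ∈ Zc := by
    rw [hZc]
    refine mem_filter.2 ⟨mem_univ _, ?_⟩
    intro h0; rw [h0] at hi0; linarith
  have hdif : ∀ k, difG th p m n D E k = D k * p k + a * E k - b * m k := by
    intro k
    rw [difG, haE, hbE]
    ring
  have key : ∀ k ∈ Zc, 3 / 4 * (1 / (2 * N)) * p k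
      + ((if k = i0 then a * g else 0) - 1 / (2 * N) * (a * g)) ≤
      yvec D k * difG th p m n D E k := by
    intro k hk
    have hk0 : ¬ D k = 0 := (mem_filter.1 hk).2
    have f6 : 0 ≤ 1 / (2 * N) * (a * g) := mul_nonneg he.le halg
    rw [hdif]
    rcases hd.D_int k with h0 | h0 | h0
    · exact absurd h0 hk0
    · have hy : yvec D k = 1 := by
        unfold yvec; rw [if_neg (by linarith)]
      have f4 : (if k = i0 then a * g else 0) ≤ a * g := by
        split_ifs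
        · exact le_rfl
        · exact halg
      have f7 := compG_pos h0 (h.m_nonneg k) (h.m_le k) ha hb2 (hd.E_ge k h0) hNle
      rw [hy, one_mul]
      linarith
    · have hy : yvec D k = -(1 / (2 * N)) := by
        unfold yvec; rw [if_pos (by linarith)]
      have hki : k ≠ i0 := by
        rintro rfl; linarith
      have f7 := compG_neg h0 (h.m_nonneg k) (h.m_le k) ha hb1 (hd.E_neg k h0) he.le
      rw [hy, if_neg hki]
      linarith
  have hsum := sum_le_sum key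
  refine le_trans ?_ hsum
  rw [sum_add_distrib, ← mul_sum, sum_sub_distrib, sum_ite_eq' Zc i0, if_pos hi0Z,
    sum_const, nsmul_eq_mul]
  have hcardZ : (#Zc : ℝ) ≤ N := by
    rw [hN]
    exact_mod_cast card_le_univ Zc
  have f8 : (#Zc : ℝ) * (1 / (2 * N) * (a * g)) ≤ N * (1 / (2 * N) * (a * g)) :=
    mul_le_mul_of_nonneg_right hcardZ (mul_nonneg he.le halg)
  have e : N * (1 / (2 * N) * (a * g)) = a * g / 2 := by
    field_simp
  linarith

/-- **[PC]**: the difference of two thin sheets has positive product with the constant vector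
`yvec D`, at every base point with `m ≠ 0`. -/
theorem pairG_pos {th C g Em : ℝ} {p m n D E : ι → ℝ} (h : PMN C p m n) (hd : DE g Em D E)
    (hg : 0 < g) (hth : 0 < th) (hsmall : 4 * (Fintype.card ι : ℝ) * (th * (Em * C)) ≤ 1)
    (hm0 : ∃ k, 0 < m k) (hDi : ∃ i, 1 ≤ D i) :
    0 < ∑ k, yvec D k * difG th p m n D E k := by
  classical
  obtain ⟨i0, hi0⟩ := hDi
  have hcard : (1 : ℝ) ≤ (Fintype.card ι : ℝ) := by
    exact_mod_cast Fintype.card_pos_iff.2 ⟨i0⟩
  have hsN : th * (Em * C) ≤ 1 / (4 * (Fintype.card ι : ℝ)) := by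
    rw [le_div_iff₀ (by positivity)]; linarith
  have hs4 : th * (Em * C) ≤ 1 / 4 := by
    refine hsN.trans ?_
    rw [div_le_div_iff₀ (by positivity) (by positivity)]; linarith
  have hbe1 := abs_le.1 (beG_abs h hd hth)
  by_cases hflat : ∀ k, n k ≤ 0
  · exact pairG_pos_flat h hd hth (by linarith) hm0 hflat
  · push Not at hflat
    obtain ⟨k0, hk0⟩ := hflat
    have hal_pos := alG_pos h hth hk0
    have h1 := ZG_part h hd hg hth
    have h2 := ZcG_part h hd hg hth (by linarith) (by linarith) hi0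
    rw [← sum_filter_add_sum_filter_not univ (fun k => D k = 0)]
    have hMZc0 : 0 ≤ ∑ k ∈ univ.filter (fun k => ¬ D k = 0), p k :=
      sum_nonneg fun k _ => h.p_nonneg k
    have hfin : th * (Em * C) * ∑ k ∈ univ.filter (fun k => ¬ D k = 0), p k ≤
        3 / 4 * (1 / (2 * (Fintype.card ι : ℝ))) *
          ∑ k ∈ univ.filter (fun k => ¬ D k = 0), p k := by
      refine mul_le_mul_of_nonneg_right (hsN.trans ?_) hMZc0
      rw [show 3 / 4 * (1 / (2 * (Fintype.card ι : ℝ))) = 3 / (8 * (Fintype.card ι : ℝ)) by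
        field_simp; norm_num]
      rw [div_le_div_iff₀ (by positivity) (by positivity)]
      linarith
    have : 0 < th * (∑ i, m i * n i) * g := mul_pos hal_pos hg
    linarith

end Vale.Agent.P268.T.H981
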